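import Mathlib

/-! P280, T7, helper309: the sl2 of an edge midpoint, Lie algebra part. -/

namespace Vale.Agent.P280.H309

variable {L : Type*} [LieRing L] [LieAlgebra ℂ L]

/-- In `sp4`: the bracket of a short root vector `E` with `[Fa, [Fb, E]]`. -/
theorem mid_alg {N κ κ' : ℂ} (hN : N ≠ 0) {Ea Fa Eb Fb E : L} (hE : E ≠ 0)
    (h1 : ⁅⁅Ea, Fa⁆, E⁆ = N • E) (h2 : ⁅⁅Eb, Fb⁆, E⁆ = N • E) (h3 : ⁅Ea, E⁆ = 0)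
    (h4 : ⁅Eb, E⁆ = 0) (h5 : ⁅Fa, Fb⁆ = 0) (k : ⁅E, ⁅Fb, E⁆⁆ = κ • Ea)
    (k' : ⁅E, ⁅Fa, E⁆⁆ = κ' • Eb) :
    κ = κ' ∧ (2 : ℂ) • ⁅E, ⁅Fa, ⁅Fb, E⁆⁆⁆ = -(κ • (⁅Ea, Fa⁆ + ⁅Eb, Fb⁆)) := by
  set P := ⁅Fa, E⁆ with hP
  set Q := ⁅Fb, E⁆ with hQ
  -- `[Fa, Q] = [Fb, P]`
  have hc : ⁅Fa, Q⁆ = ⁅Fb, P⁆ := by
    rw [hQ, leibniz_lie, h5, zero_lie, zero_add]
  -- the two computations of `[E, [Fa, Q]]`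
  have e1 : ⁅E, ⁅Fa, Q⁆⁆ = -⁅P, Q⁆ - κ • ⁅Ea, Fa⁆ := by
    rw [leibniz_lie, k, lie_smul, ← lie_skew E Fa, ← hP, neg_lie, ← lie_skew Fa Ea, smul_neg]
    abel
  have e2 : ⁅E, ⁅Fa, Q⁆⁆ = ⁅P, Q⁆ - κ' • ⁅Eb, Fb⁆ := by
    rw [hc, leibniz_lie, k', lie_smul, ← lie_skew E Fb, ← hQ, neg_lie, ← lie_skew Fb Eb, smul_neg,
      lie_skew]
    abel
  have e3 : (2 : ℂ) • ⁅P, Q⁆ = κ' • ⁅Eb, Fb⁆ - κ • ⁅Ea, Fa⁆ := by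
    have h6 : -⁅P, Q⁆ - κ • ⁅Ea, Fa⁆ = ⁅P, Q⁆ - κ' • ⁅Eb, Fb⁆ := e1.symm.trans e2
    rw [two_smul]
    have h7 : ⁅P, Q⁆ + ⁅P, Q⁆ = (⁅P, Q⁆ - κ' • ⁅Eb, Fb⁆) + ⁅P, Q⁆ + κ' • ⁅Eb, Fb⁆ := by abel
    rw [h7, ← h6]
    abel
  -- the bracket with `E`
  have e4 : ⁅P, Ea⁆ = -(N • E) := by
    have h6 : ⁅Ea, P⁆ = N • E := by
      rw [hP, leibniz_lie, h1, h3, lie_zero, add_zero]
    rw [← lie_skew, h6]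
  have e5 : ⁅Q, Eb⁆ = -(N • E) := by
    have h6 : ⁅Eb, Q⁆ = N • E := by
      rw [hQ, leibniz_lie, h2, h4, lie_zero, add_zero]
    rw [← lie_skew, h6]
  have e6 : ⁅⁅P, Q⁆, E⁆ = (N * (κ - κ')) • E := by
    rw [lie_lie, ← lie_skew Q E, ← lie_skew P E, k, k', lie_neg, lie_neg, lie_smul, lie_smul, e4,
      e5, smul_neg, smul_neg, neg_neg, neg_neg, smul_smul, smul_smul, ← sub_smul]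
    congr 1
    ring
  have e7 : (2 : ℂ) • ⁅⁅P, Q⁆, E⁆ = (N * (κ' - κ)) • E := by
    rw [← smul_lie, e3, sub_lie, smul_lie, smul_lie, h1, h2, smul_smul, smul_smul, ← sub_smul]
    congr 1
    ring
  have hκ : κ = κ' := by
    rw [e6, smul_smul] at e7
    have h6 : (2 * (N * (κ - κ')) - N * (κ' - κ)) • E = 0 := by rw [sub_smul, e7, sub_self]
    rcases smul_eq_zero.1 h6 with h7 | h7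
    · have h8 : 3 * N * (κ - κ') = 0 := by linear_combination h7
      have h9 : κ - κ' = 0 := by
        rcases mul_eq_zero.1 h8 with h9 | h9
        · exact absurd h9 (mul_ne_zero (by norm_num) hN)
        · exact h9
      exact sub_eq_zero.1 h9
    · exact absurd h7 hE
  refine ⟨hκ, ?_⟩
  subst hκ
  rw [two_smul]
  nth_rewrite 1 [e1]
  rw [e2, smul_add]
  abel

/-- Polarisation. -/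
theorem mid_pol {Fb E1 E2 : L} (h1 : ⁅E1, ⁅Fb, E1⁆⁆ = 0) (h2 : ⁅E2, ⁅Fb, E2⁆⁆ = 0)
    (h3 : ⁅E1 + E2, ⁅Fb, E1 + E2⁆⁆ = 0) (h4 : ⁅E1, E2⁆ = 0) : ⁅E1, ⁅Fb, E2⁆⁆ = 0 := by
  have e1 : ⁅E1, ⁅Fb, E2⁆⁆ + ⁅E2, ⁅Fb, E1⁆⁆ = 0 := by
    rw [lie_add, add_lie, lie_add, lie_add, h1, h2, zero_add, add_zero] at h3
    exact h3
  have e2 : ⁅E1, ⁅Fb, E2⁆⁆ = ⁅E2, ⁅Fb, E1⁆⁆ := by
    have e3 : ⁅Fb, ⁅E1, E2⁆⁆ = ⁅⁅Fb, E1⁆, E2⁆ + ⁅E1, ⁅Fb, E2⁆⁆ := leibniz_lie Fb E1 E2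
    rw [h4, lie_zero, ← lie_skew ⁅Fb, E1⁆ E2] at e3
    have e5 : ⁅E1, ⁅Fb, E2⁆⁆ = ⁅E2, ⁅Fb, E1⁆⁆ + (-⁅E2, ⁅Fb, E1⁆⁆ + ⁅E1, ⁅Fb, E2⁆⁆) := by abel
    rw [e5, ← e3, add_zero]
  rw [← e2, ← two_smul ℂ] at e1
  exact (smul_eq_zero.1 e1).resolve_left two_ne_zero

/-- If the form is zero, the brackets `[E1, G]` commute with `Ea`. -/
theorem mid_comm {N : ℂ} (hN : N ≠ 0) {Ea Eb Fb E1 G : L} (h1 : ⁅⁅Eb, Fb⁆, G⁆ = -(N • G))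
    (h2 : ⁅Fb, Ea⁆ = 0) (h3 : ⁅Fb, G⁆ = 0) (h4 : ⁅E1, Ea⁆ = 0)
    (h5 : ⁅E1, ⁅Fb, ⁅Ea, ⁅Eb, G⁆⁆⁆⁆ = 0) : ⁅⁅E1, G⁆, Ea⁆ = 0 := by
  have e1 : ⁅Fb, ⁅Eb, G⁆⁆ = N • G := by
    rw [leibniz_lie, h3, lie_zero, add_zero, ← lie_skew Fb Eb, neg_lie, h1, neg_neg]
  have e2 : ⁅Fb, ⁅Ea, ⁅Eb, G⁆⁆⁆ = N • ⁅Ea, G⁆ := by
    rw [leibniz_lie, h2, zero_lie, zero_add, e1, lie_smul]
  rw [e2, lie_smul] at h5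
  have h6 := (smul_eq_zero.1 h5).resolve_left hN
  rw [lie_lie, h4, lie_zero, sub_zero, ← lie_skew G Ea, lie_neg, h6, neg_zero]

end Vale.Agent.P280.H309
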