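import Vale.Agent.P280.H690.Mix3
import Vale.Agent.P280.H60.Eta
import Vale.Agent.P280.H309.MidAlg

/-! P280, T7, helper309: the `sl2` of the midpoint of an edge between two orthogonal vertices. -/

open DirectSum Vale.Agent.P280.T Vale.Agent.P280.H127

namespace Vale.Agent.P280.H309

open Vale.Agent.P280.N Vale.Agent.P280.H490 Vale.Agent.P280.H143 Vale.Agent.P280.H60
  Vale.Agent.P280.H690

variable {r : ℕ} {R : Type} [CommRing R] [IsDomain R] [Algebra ℂ R]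
  {𝒜 : ℕ × (Fin r → ℤ) → Submodule ℂ R} [GradedAlgebra 𝒜]

omit [IsDomain R] in
/-- The torus element of a root acts on the fields. -/
theorem lie_rt {N : ℤ} {χ : Fin r → ℤ} {β : (Fin r → ℤ) →+ ℤ} {α : ℂ} {E F : Derivation ℂ R R}
    (hR : Rt 𝒜 N χ β α E F) {ω : Fin r → ℤ} {D : Derivation ℂ R R} (hD : H93.IsHField 𝒜 ω D) :
    ⁅⁅E, F⁆, D⁆ = (β ω : ℂ) • D := by
  have h1 : ((⁅⁅E, F⁆, D⁆ - (β ω : ℂ) • D : Derivation ℂ R R) : R →ₗ[ℂ] R) = 0 := by
    apply linearMap_ext_graded 𝒜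
    rintro ⟨d, m⟩ h hh
    have e1 : ⁅E, F⁆ h = -(((d : ℂ) * α + (β m : ℂ)) • h) := by
      rw [Derivation.commutator_apply]
      exact hR.br d m h hh
    have e2 : ⁅E, F⁆ (D h) = -(((d : ℂ) * α + (β (m - ω) : ℂ)) • D h) := by
      rw [Derivation.commutator_apply]
      exact hR.br d _ _ (hD d m h hh)
    change ⁅⁅E, F⁆, D⁆ h - (β ω : ℂ) • D h = 0
    rw [Derivation.commutator_apply, e1, e2, map_neg, Derivation.map_smul, map_sub]
    push_cast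
    rw [sub_neg_eq_add, neg_add_eq_sub, ← sub_smul, ← sub_smul]
    have e3 : (d : ℂ) * α + (β m : ℂ) - ((d : ℂ) * α + ((β m : ℂ) - (β ω : ℂ))) - (β ω : ℂ) = 0 := by
      ring
    rw [e3, zero_smul]
  ext x
  have h2 := LinearMap.congr_fun h1 x
  exact sub_eq_zero.1 h2

/-- Orthogonal vertices: the sum of the coroots is bounded on the weights. -/
theorem orth_le (H : H63X.Hyp 𝒜) {N : ℤ} {b : (Fin r → ℤ) → ((Fin r → ℤ) →+ ℤ)}
    {al : (Fin r → ℤ) → ℂ} {E F : (Fin r → ℤ) → Derivation ℂ R R} {a : (Fin r → ℤ) → FP 𝒜 → ℤ}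
    (h : RD 𝒜 N b al E F a) {χ ψ : Fin r → ℤ} (hχ : Vx 𝒜 χ) (hψ : Vx 𝒜 ψ) (h1 : b χ ψ = 0)
    (h2 : b ψ χ = 0) {ω : Fin r → ℤ} (hω : Wt 𝒜 ω) : |b χ ω + b ψ ω| ≤ 2 * N := by
  have hN := h.N0
  obtain ⟨p1, p2⟩ := rt_eq H hN hχ (h.rt χ hχ) hω
  obtain ⟨p3, p4⟩ := rt_eq H hN hψ (h.rt ψ hψ) hω
  have q1 := (h.rt χ hχ).two
  have q2 := (h.rt ψ hψ).two
  rw [abs_le]
  by_cases c1 : N < b χ ω
  · rw [p1 c1, q1, h2]; omega
  by_cases c2 : b χ ω < -N
  · rw [p2 c2, map_neg, map_neg, q1, h2]; omega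
  by_cases c3 : N < b ψ ω
  · rw [p3 c3, q2, h1]; omega
  by_cases c4 : b ψ ω < -N
  · rw [p4 c4, map_neg, map_neg, q2, h1]; omega
  omega

/-- **The midpoint of an edge between two orthogonal vertices is a root.** -/
theorem mid (H : H63X.Hyp 𝒜) (hBd : Bd 𝒜) {N : ℤ} {b : (Fin r → ℤ) → ((Fin r → ℤ) →+ ℤ)}
    {al : (Fin r → ℤ) → ℂ} {E F : (Fin r → ℤ) → Derivation ℂ R R} {a : (Fin r → ℤ) → FP 𝒜 → ℤ}
    (h : RD 𝒜 N b al E F a) {χ ψ w : Fin r → ℤ} (hχ : Vx 𝒜 χ) (hψ : Vx 𝒜 ψ) (h1 : b χ ψ = 0)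
    (h2 : b ψ χ = 0) (hw : w + w = χ + ψ) (hwt : Wt 𝒜 w) :
    ∃ E' F' : Derivation ℂ R R, Rt 𝒜 N w (b χ + b ψ) (al χ + al ψ) E' F' ∧ E' ≠ 0 := by
  have hX := H.hX
  have hN := h.N0
  have hNC : (N : ℂ) ≠ 0 := by exact_mod_cast hN.ne'
  have Rχ := h.rt χ hχ
  have Rψ := h.rt ψ hψ
  have q1 := Rχ.two
  have q2 := Rψ.two
  have w1 : b χ w = N := by
    have e1 := congrArg (b χ) hw
    rw [map_add, map_add, q1, h1] at e1
    omega
  have w2 : b ψ w = N := by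
    have e1 := congrArg (b ψ) hw
    rw [map_add, map_add, q2, h2] at e1
    omega
  -- brackets which are zero
  have z1 : ∀ {ω : Fin r → ℤ} {D : Derivation ℂ R R}, H93.IsHField 𝒜 ω D → 2 * N < b χ ω →
      D = 0 := fun {ω D} hD hω => by
    by_contra hne
    exact absurd (field_le H hN (h.root χ hχ) hD hne) (not_le.2 hω)
  have z2 : ∀ {ω : Fin r → ℤ} {D : Derivation ℂ R R}, H93.IsHField 𝒜 ω D → 2 * N < b ψ ω →
      D = 0 := fun {ω D} hD hω => by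
    by_contra hne
    exact absurd (field_le H hN (h.root ψ hψ) hD hne) (not_le.2 hω)
  have hFF : ⁅F χ, F ψ⁆ = 0 := by
    by_contra hne
    have e1 := field_two H hN (root_opp (h.root χ hχ)) (Rχ.hF.lie Rψ.hF) hne (by
      rw [AddMonoidHom.neg_apply, map_add, map_neg, map_neg, q1, h1]
      ring)
    have e2 : ψ = 0 := by
      have e3 : -χ + -ψ = -χ + 0 := by rw [e1, add_zero]
      exact neg_eq_zero.1 (add_left_cancel e3)
    rw [e2, map_zero] at q2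
    omega
  have hEF : ⁅F ψ, E χ⁆ = 0 := by
    by_contra hne
    have e1 := field_two H hN (h.root χ hχ) (Rψ.hF.lie Rχ.hE) hne (by
      rw [map_add, map_neg, q1, h1]
      ring)
    have e2 : ψ = 0 := neg_eq_zero.1 (add_eq_right.1 e1)
    rw [e2, map_zero] at q2
    omega
  have hEF' : ⁅F χ, E ψ⁆ = 0 := by
    by_contra hne
    have e1 := field_two H hN (h.root ψ hψ) (Rχ.hF.lie Rψ.hE) hne (by
      rw [map_add, map_neg, q2, h2]
      ring)
    have e2 : χ = 0 := neg_eq_zero.1 (add_eq_right.1 e1)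
    rw [e2, map_zero] at q1
    omega
  have hww : ∀ {D D' : Derivation ℂ R R}, H93.IsHField 𝒜 w D → H93.IsHField 𝒜 w D' →
      ⁅D, D'⁆ = 0 := fun {D D'} hD hD' => by
    by_contra hne
    have e1 := field_two H hN (h.root χ hχ) (hD.lie hD') hne (by
      rw [hw, map_add, q1, h1]
      ring)
    rw [hw] at e1
    have e2 : ψ = 0 := add_eq_left.1 e1
    rw [e2, map_zero] at q2
    omega
  have k1 : ∀ {D : Derivation ℂ R R}, H93.IsHField 𝒜 w D → ∃ κ : ℂ, ⁅D, ⁅F ψ, D⁆⁆ = κ • E χ :=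
    fun {D} hD => by
    obtain ⟨k, hk⟩ := rt_unique H hN hχ Rχ (isHField_of_eq (hD.lie (Rψ.hF.lie hD)) (by
      have e1 : w + (-ψ + w) = w + w - ψ := by abel
      rw [e1, hw, add_sub_cancel_right]))
    exact ⟨k, Derivation.ext fun x => hk x⟩
  have k2 : ∀ {D : Derivation ℂ R R}, H93.IsHField 𝒜 w D → ∃ κ : ℂ, ⁅D, ⁅F χ, D⁆⁆ = κ • E ψ :=
    fun {D} hD => by
    obtain ⟨k, hk⟩ := rt_unique H hN hψ Rψ (isHField_of_eq (hD.lie (Rχ.hF.lie hD)) (by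
      have e1 : w + (-χ + w) = w + w - χ := by abel
      rw [e1, hw, add_sub_cancel_left]))
    exact ⟨k, Derivation.ext fun x => hk x⟩
  have s1 : ∀ {D : Derivation ℂ R R}, H93.IsHField 𝒜 w D → ⁅⁅E χ, F χ⁆, D⁆ = (N : ℂ) • D :=
    fun {D} hD => by rw [lie_rt Rχ hD, w1]
  have s2 : ∀ {D : Derivation ℂ R R}, H93.IsHField 𝒜 w D → ⁅⁅E ψ, F ψ⁆, D⁆ = (N : ℂ) • D :=
    fun {D} hD => by rw [lie_rt Rψ hD, w2]
  have t1 : ∀ {D : Derivation ℂ R R}, H93.IsHField 𝒜 w D → ⁅E χ, D⁆ = 0 := fun {D} hD =>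
    z1 (Rχ.hE.lie hD) (by rw [map_add, q1, w1]; omega)
  have t2 : ∀ {D : Derivation ℂ R R}, H93.IsHField 𝒜 w D → ⁅E ψ, D⁆ = 0 := fun {D} hD =>
    z2 (Rψ.hE.lie hD) (by rw [map_add, q2, w2]; omega)
  -- the form is not zero
  obtain ⟨D, hD, hDne, κ, hκ, hκ0⟩ : ∃ D : Derivation ℂ R R, H93.IsHField 𝒜 w D ∧ D ≠ 0 ∧
      ∃ κ : ℂ, ⁅D, ⁅F ψ, D⁆⁆ = κ • E χ ∧ κ ≠ 0 := by
    by_contra hcon
    have v1 : ∀ {D : Derivation ℂ R R}, H93.IsHField 𝒜 w D → ⁅D, ⁅F ψ, D⁆⁆ = 0 := by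
      intro D hD
      by_cases hD0 : D = 0
      · rw [hD0, zero_lie]
      · obtain ⟨κ, hκ⟩ := k1 hD
        by_cases hκ0 : κ = 0
        · rw [hκ, hκ0, zero_smul]
        · exact absurd ⟨D, hD, hD0, κ, hκ, hκ0⟩ hcon
    have v2 : ∀ {D : Derivation ℂ R R}, H93.IsHField 𝒜 w D → ⁅D, ⁅F χ, D⁆⁆ = 0 := by
      intro D hD
      by_cases hD0 : D = 0
      · rw [hD0, zero_lie]
      · obtain ⟨κ', hκ'⟩ := k2 hD
        have e1 := (mid_alg hNC hD0 (s1 hD) (s2 hD) (t1 hD) (t2 hD) hFF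
          (κ := 0) (κ' := κ') (by rw [v1 hD, zero_smul]) hκ').1
        rw [hκ', ← e1, zero_smul]
    -- the pair
    have hbw : Bdy 𝒜 w := ⟨b χ + b ψ, by
        rw [AddMonoidHom.add_apply, w1, w2]; omega, fun ω hω => by
        rw [AddMonoidHom.add_apply, AddMonoidHom.add_apply, w1, w2]
        have := (abs_le.1 (orth_le H h hχ hψ h1 h2 hω)).2
        omega⟩
    have hbw' : Bdy 𝒜 (-w) := ⟨-(b χ + b ψ), by
        rw [AddMonoidHom.neg_apply, map_neg, neg_neg, AddMonoidHom.add_apply, w1, w2]; omega,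
        fun ω hω => by
        rw [AddMonoidHom.neg_apply, AddMonoidHom.neg_apply, map_neg, neg_neg,
          AddMonoidHom.add_apply, AddMonoidHom.add_apply, w1, w2]
        have := (abs_le.1 (orth_le H h hχ hψ h1 h2 hω)).1
        omega⟩
    obtain ⟨z, hz⟩ := hwt
    have hmul : ∀ (y : FP 𝒜) (k : ℕ), 2 ≤ k → ¬ y.Pi (k • w) ∧ ¬ y.Pi (-(k • w)) := by
      intro y k hk
      have hk' : (2 : ℤ) ≤ k := by exact_mod_cast hk
      have e1 : b χ (k • w) = k * N := by rw [map_nsmul, w1, nsmul_eq_mul]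
      have e2 : b ψ (k • w) = k * N := by rw [map_nsmul, w2, nsmul_eq_mul]
      have e3 : 2 * N ≤ k * N := mul_le_mul_of_nonneg_right hk' hN.le
      constructor
      · intro h3
        have e4 := (abs_le.1 (orth_le H h hχ hψ h1 h2 ⟨y, h3⟩)).2
        omega
      · intro h3
        have e4 := (abs_le.1 (orth_le H h hχ hψ h1 h2 ⟨y, h3⟩)).1
        rw [map_neg, map_neg] at e4
        omega
    obtain ⟨y, n, φ, D, G, hφ, hDf, hGf, hGφ, hDφ, hDz⟩ := curve_pair H hz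
      (fun y w' hy hw' => hBd y w' hy (by
        rcases hw' with rfl | rfl
        · exact hbw
        · exact hbw')) hmul
    obtain ⟨Eu, hEu⟩ := H587.exists_euler 𝒜
    obtain ⟨hG0, hH0, hDH, hHm⟩ := pair_vals hφ hDf hGf hEu hGφ hDφ
    obtain ⟨α', b', hb'⟩ := H.tor _ hHm
    have T : Tor 𝒜 (⁅D, G⁆ - (n : ℂ) • Eu) α' b' := ⟨hHm, hb'⟩
    have hs : b' w = -2 := by
      obtain ⟨x1, hx1⟩ := hDz
      exact (T.eig_tan hX hH0 (H224.hasWeight_value z.fix hDf)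
        (fun h => hx1 (LinearMap.congr_fun h x1)) hDH).symm
    -- the brackets with the vertices
    have hGw : ∀ {ω : Fin r → ℤ}, ω = -w → H93.IsHField 𝒜 ω G := fun he => isHField_of_eq hGf he.symm
    have c1 : ⁅⁅D, G⁆, E χ⁆ = 0 := by
      have hE2 : H93.IsHField 𝒜 w ⁅E χ, ⁅E ψ, G⁆⁆ := isHField_of_eq (Rχ.hE.lie (Rψ.hE.lie hGf)) (by
        have e1 : χ + (ψ + -w) = χ + ψ - w := by abel
        rw [e1, ← hw, add_sub_cancel_right])
      refine mid_comm hNC (Eb := E ψ) (Fb := F ψ) ?_ hEF ?_ ?_ ?_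
      · rw [lie_rt Rψ hGf, map_neg, w2]
        push_cast
        rw [neg_smul]
      · by_contra hne
        have e1 := field_le H hN (root_opp (h.root ψ hψ)) (Rψ.hF.lie hGf) hne
        rw [AddMonoidHom.neg_apply, map_add, map_neg, map_neg, q2, w2] at e1
        omega
      · rw [← lie_skew, t1 hDf, neg_zero]
      · have hs12 : H93.IsHField 𝒜 w (D + ⁅E χ, ⁅E ψ, G⁆⁆) := fun d m x hx =>
          Submodule.add_mem _ (hDf d m x hx) (hE2 d m x hx)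
        exact mid_pol (v1 hDf) (v1 hE2) (v1 hs12) (hww hDf hE2)
    have c2 : ⁅⁅D, G⁆, E ψ⁆ = 0 := by
      have hE2 : H93.IsHField 𝒜 w ⁅E ψ, ⁅E χ, G⁆⁆ := isHField_of_eq (Rψ.hE.lie (Rχ.hE.lie hGf)) (by
        have e1 : ψ + (χ + -w) = χ + ψ - w := by abel
        rw [e1, ← hw, add_sub_cancel_right])
      refine mid_comm hNC (Eb := E χ) (Fb := F χ) ?_ hEF' ?_ ?_ ?_
      · rw [lie_rt Rχ hGf, map_neg, w1]
        push_cast
        rw [neg_smul]
      · by_contra hne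
        have e1 := field_le H hN (root_opp (h.root χ hχ)) (Rχ.hF.lie hGf) hne
        rw [AddMonoidHom.neg_apply, map_add, map_neg, map_neg, q1, w1] at e1
        omega
      · rw [← lie_skew, t2 hDf, neg_zero]
      · have hs12 : H93.IsHField 𝒜 w (D + ⁅E ψ, ⁅E χ, G⁆⁆) := fun d m x hx =>
          Submodule.add_mem _ (hDf d m x hx) (hE2 d m x hx)
        exact mid_pol (v2 hDf) (v2 hE2) (v2 hs12) (hww hDf hE2)
    have d1 : b' χ = 0 := by
      have e1 := T.eig_fld Rχ.hE (rt_ne H hN hχ Rχ) (μ := 0) (fun x => by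
        rw [sub_lie, smul_lie, eu_comm hEu Rχ.hE, smul_zero, sub_zero, c1, zero_smul]
        rfl)
      exact neg_eq_zero.1 e1.symm
    have d2 : b' ψ = 0 := by
      have e1 := T.eig_fld Rψ.hE (rt_ne H hN hψ Rψ) (μ := 0) (fun x => by
        rw [sub_lie, smul_lie, eu_comm hEu Rψ.hE, smul_zero, sub_zero, c2, zero_smul]
        rfl)
      exact neg_eq_zero.1 e1.symm
    have d3 := congrArg b' hw
    rw [map_add, map_add, d1, d2, hs] at d3
    norm_num at d3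
  -- the root
  obtain ⟨κ', hκ'⟩ := k2 hD
  obtain ⟨-, hmain⟩ := mid_alg hNC hDne (s1 hD) (s2 hD) (t1 hD) (t2 hD) hFF hκ hκ'
  set F0 : Derivation ℂ R R := ⁅F χ, ⁅F ψ, D⁆⁆ with hF0
  refine ⟨D, (-(2 / κ)) • F0, ⟨hD, ?_, ?_, ?_⟩, hDne⟩
  · intro d m x hx
    rw [Derivation.smul_apply]
    refine Submodule.smul_mem _ _ ?_
    have e1 := (isHField_of_eq (Rχ.hF.lie (Rψ.hF.lie hD)) (show -χ + (-ψ + w) = -w by
      have e2 : -χ + (-ψ + w) = w - (χ + ψ) := by abel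
      rw [e2, ← hw]
      abel)) d m x hx
    exact e1
  · rw [AddMonoidHom.add_apply, w1, w2]
    ring
  · intro d m x hx
    have e0 : ⁅D, (-(2 / κ)) • F0⁆ = ⁅E χ, F χ⁆ + ⁅E ψ, F ψ⁆ := by
      rw [lie_smul]
      have e1 : ((-(2 / κ)) • ⁅D, F0⁆ : Derivation ℂ R R) = (-(1 / κ)) • ((2 : ℂ) • ⁅D, F0⁆) := by
        rw [smul_smul]
        congr 1
        ring
      rw [e1, hmain, smul_neg, smul_smul, ← neg_smul]
      have e2 : -(-(1 / κ) * κ) = 1 := by field_simp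
      rw [e2, one_smul]
    rw [← Derivation.commutator_apply, e0]
    have e3 : (⁅E χ, F χ⁆ + ⁅E ψ, F ψ⁆) x = (E χ (F χ x) - F χ (E χ x)) + (E ψ (F ψ x) - F ψ (E ψ x)) := by
      rw [Derivation.add_apply, Derivation.commutator_apply, Derivation.commutator_apply]
    rw [e3, Rχ.br d m x hx, Rψ.br d m x hx, AddMonoidHom.add_apply, ← neg_add, ← add_smul]
    push_cast
    congr 2
    ring

end Vale.Agent.P280.H309
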