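import Vale.Agent.P280.H475T.Bd3
import Vale.Agent.P280.H309.Mid

/-! P280, T7, helper309: strings and reflections along the midpoints of edges. -/

open DirectSum Vale.Agent.P280.T Vale.Agent.P280.H127

namespace Vale.Agent.P280.H309

open Vale.Agent.P280.N Vale.Agent.P280.H490 Vale.Agent.P280.H143 Vale.Agent.P280.H60
  Vale.Agent.P280.H690

variable {r : ℕ} {R : Type} [CommRing R] [IsDomain R] [Algebra ℂ R]
  {𝒜 : ℕ × (Fin r → ℤ) → Submodule ℂ R} [GradedAlgebra 𝒜]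

theorem rt_up (H : H63X.Hyp 𝒜) {N : ℤ} (hN : 0 < N) {w : Fin r → ℤ} {β : (Fin r → ℤ) →+ ℤ}
    {α : ℂ} {E F : Derivation ℂ R R} (hR : Rt 𝒜 N w β α E F) (hint : ∀ ω, Wt 𝒜 ω → N ∣ β ω)
    {z : FP 𝒜} (hn : ¬ z.Pi (-w)) {μ : Fin r → ℤ} (hμ : z.Pi μ) (hβ : β μ < 0) :
    z.Pi (μ + w) :=
  H63X.nef_string0 H hN (root0 hR) hint z hn hμ hβ

theorem rt_down (H : H63X.Hyp 𝒜) {N : ℤ} (hN : 0 < N) {w : Fin r → ℤ} {β : (Fin r → ℤ) →+ ℤ}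
    {α : ℂ} {E F : Derivation ℂ R R} (hR : Rt 𝒜 N w β α E F) (hint : ∀ ω, Wt 𝒜 ω → N ∣ β ω)
    {z : FP 𝒜} (hn : ¬ z.Pi w) {μ : Fin r → ℤ} (hμ : z.Pi μ) (hβ : 0 < β μ) :
    z.Pi (μ - w) := by
  rw [sub_eq_add_neg]
  refine H63X.nef_string0 H hN (root0 hR.neg) (fun ω hω => ?_) z (by rwa [neg_neg]) hμ ?_
  · rw [AddMonoidHom.neg_apply]
    exact (dvd_neg).2 (hint ω hω)
  · rw [AddMonoidHom.neg_apply]
    omega

/-- `w` is a weight and the midpoint of the orthogonal vertices `χ` and `ψ`. -/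
structure MP (𝒜 : ℕ × (Fin r → ℤ) → Submodule ℂ R) (b : (Fin r → ℤ) → ((Fin r → ℤ) →+ ℤ))
    (χ ψ w : Fin r → ℤ) : Prop where
  v1 : Vx 𝒜 χ
  v2 : Vx 𝒜 ψ
  h1 : b χ ψ = 0
  h2 : b ψ χ = 0
  hw : w + w = χ + ψ
  wt : Wt 𝒜 w

section
variable {N : ℤ} {b : (Fin r → ℤ) → ((Fin r → ℤ) →+ ℤ)}
  {al : (Fin r → ℤ) → ℂ} {E F : (Fin r → ℤ) → Derivation ℂ R R} {a : (Fin r → ℤ) → FP 𝒜 → ℤ}
  {χ ψ w : Fin r → ℤ}

omit [GradedAlgebra 𝒜] in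
theorem MP.b1 (m : MP 𝒜 b χ ψ w) (h : RD 𝒜 N b al E F a) : b χ w = N := by
  have e1 := congrArg (b χ) m.hw
  rw [map_add, map_add, (h.rt χ m.v1).two, m.h1] at e1
  omega

omit [GradedAlgebra 𝒜] in
theorem MP.b2 (m : MP 𝒜 b χ ψ w) (h : RD 𝒜 N b al E F a) : b ψ w = N := by
  have e1 := congrArg (b ψ) m.hw
  rw [map_add, map_add, (h.rt ψ m.v2).two, m.h2] at e1
  omega

omit [IsDomain R] [GradedAlgebra 𝒜] in
theorem MP.symm (m : MP 𝒜 b χ ψ w) : MP 𝒜 b ψ χ w :=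
  ⟨m.v2, m.v1, m.h2, m.h1, by rw [m.hw, add_comm], m.wt⟩

theorem MP.le (H : H63X.Hyp 𝒜) (h : RD 𝒜 N b al E F a) (m : MP 𝒜 b χ ψ w) {ω : Fin r → ℤ}
    (hω : Wt 𝒜 ω) : |b χ ω + b ψ ω| ≤ 2 * N := orth_le H h m.v1 m.v2 m.h1 m.h2 hω

theorem MP.dvd (H : H63X.Hyp 𝒜) (h : RD 𝒜 N b al E F a) (m : MP 𝒜 b χ ψ w) {ω : Fin r → ℤ}
    (hω : Wt 𝒜 ω) : N ∣ (b χ + b ψ) ω := by
  rw [AddMonoidHom.add_apply]
  exact dvd_add ((h.root χ m.v1).int ω hω) ((h.root ψ m.v2).int ω hω)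

theorem MP.bdy (H : H63X.Hyp 𝒜) (h : RD 𝒜 N b al E F a) (m : MP 𝒜 b χ ψ w) : Bdy 𝒜 w := by
  have hN := h.N0
  refine ⟨b χ + b ψ, ?_, fun ω hω => ?_⟩
  · rw [AddMonoidHom.add_apply, m.b1 h, m.b2 h]
    omega
  · rw [AddMonoidHom.add_apply, AddMonoidHom.add_apply, m.b1 h, m.b2 h]
    have := (abs_le.1 (m.le H h hω)).2
    omega

theorem MP.up (H : H63X.Hyp 𝒜) (hBd : Bd 𝒜) (h : RD 𝒜 N b al E F a) (m : MP 𝒜 b χ ψ w)
    {z : FP 𝒜} (hn : ¬ z.Pi (-w)) {μ : Fin r → ℤ} (hμ : z.Pi μ) (hβ : b χ μ + b ψ μ < 0) :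
    z.Pi (μ + w) := by
  obtain ⟨E', F', hR, -⟩ := mid H hBd h m.v1 m.v2 m.h1 m.h2 m.hw m.wt
  exact rt_up H h.N0 hR (fun ω hω => m.dvd H h hω) hn hμ hβ

theorem MP.down (H : H63X.Hyp 𝒜) (hBd : Bd 𝒜) (h : RD 𝒜 N b al E F a) (m : MP 𝒜 b χ ψ w)
    {z : FP 𝒜} (hn : ¬ z.Pi w) {μ : Fin r → ℤ} (hμ : z.Pi μ) (hβ : 0 < b χ μ + b ψ μ) :
    z.Pi (μ - w) := by
  obtain ⟨E', F', hR, -⟩ := mid H hBd h m.v1 m.v2 m.h1 m.h2 m.hw m.wt
  exact rt_down H h.N0 hR (fun ω hω => m.dvd H h hω) hn hμ hβ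

theorem bd_lf (hBd : Bd 𝒜) {χ : Fin r → ℤ} (hB : Bdy 𝒜 χ) (y : FP 𝒜) : Lf 𝒜 y χ := by
  by_cases h : y.Pi χ
  · exact (hBd y χ h hB).1
  · exact lf_of_not_pi y h

theorem MP.nopp (H : H63X.Hyp 𝒜) (hBd : Bd 𝒜) (h : RD 𝒜 N b al E F a) (m : MP 𝒜 b χ ψ w)
    {z : FP 𝒜} (h1 : z.Pi w) (h2 : z.Pi (-w)) : False :=
  H475T.bdy_no_opp H (m.bdy H h) (bd_lf hBd (m.bdy H h))
    (bd_lf hBd (H475T.bdy_neg H (m.bdy H h))) h1 h2

/-- A reflection of a weight. -/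
theorem MP.reflect (H : H63X.Hyp 𝒜) (hBd : Bd 𝒜) (h : RD 𝒜 N b al E F a) (m : MP 𝒜 b χ ψ w)
    {μ : Fin r → ℤ} (hμ : Wt 𝒜 μ) (m1 : b χ μ = -N) (m2 : b ψ μ = 0) : Wt 𝒜 (μ + w) := by
  have hN := h.N0
  obtain ⟨y, hy⟩ := hμ
  have hneg : b χ μ + b ψ μ < 0 := by omega
  by_cases hna : y.Pi (-w)
  · obtain ⟨y1, n, φ, hφ⟩ := H641.exists_curve H y hna
    obtain ⟨φ', hφ', -⟩ := H63X.exists_rev H hφ
    have hmul : ∀ k : ℤ, μ ≠ k • w := by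
      intro k hk
      have e1 := congrArg (b χ) hk
      have e2 := congrArg (b ψ) hk
      rw [map_zsmul, m.b1 h, m1, smul_eq_mul] at e1
      rw [map_zsmul, m.b2 h, m2, smul_eq_mul] at e2
      omega
    obtain ⟨k, hk⟩ := H641.curve_wt H hφ' (μ := μ) (fun k hk => hmul k (by simpa using hk)) hy
    rw [neg_neg] at hk
    have e1 : b χ (μ + (k : ℤ) • w) + b ψ (μ + (k : ℤ) • w) = -N + k * (2 * N) := by
      rw [map_add, map_add, map_zsmul, map_zsmul, m.b1 h, m.b2 h, m1, m2, smul_eq_mul]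
      ring
    have e2 := m.le H h ⟨y1, hk⟩
    rw [e1, abs_le] at e2
    have h3 : (k : ℤ) ≤ 1 := by nlinarith [e2.2]
    have h4 : k = 0 ∨ k = 1 := by omega
    have h5 : y1.Pi w := by simpa using hφ.ya'
    rcases h4 with rfl | rfl
    · refine ⟨y1, m.up H hBd h (fun h6 => m.nopp H hBd h h5 h6) (by simpa using hk) hneg⟩
    · exact ⟨y1, by simpa using hk⟩
  · exact ⟨y, m.up H hBd h hna hy hneg⟩

/-- The field of a midpoint does not vanish where its weight is a tangent weight. -/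
theorem MP.val (H : H63X.Hyp 𝒜) (hBd : Bd 𝒜) (h : RD 𝒜 N b al E F a) (m : MP 𝒜 b χ ψ w)
    {E' F' : Derivation ℂ R R} (hR : Rt 𝒜 N w (b χ + b ψ) (al χ + al ψ) E' F') {y : FP 𝒜}
    (hy : y.Pi w) : ∃ x, y.q (E' x) ≠ 0 := by
  have hN := h.N0
  have hNC : (N : ℂ) ≠ 0 := by exact_mod_cast hN.ne'
  by_contra hcon
  push Not at hcon
  have hw0 : w ≠ 0 := by
    intro h0
    have := m.b1 h
    rw [h0, map_zero] at this
    omega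
  have hF0 : ∀ x, y.q (F' x) = 0 := val_zero y (neg_ne_zero.2 hw0) hR.hF
    (fun h2 => m.nopp H hBd h hy h2)
  obtain ⟨t, ht, htw, ht0⟩ := pi_ne hy
  -- `t ∘ E'` is zero
  have hβ : (b χ + b ψ) w = 2 * N := hR.two
  have htE : ∀ x, t (E' x) = 0 := by
    have e1 := tan_comp ht hcon
    have e2 := wt_comp htw hR.hE
    have e3 : w + w ≠ 0 := by
      intro e
      have e4 := congrArg (b χ) e
      rw [map_add, m.b1 h, map_zero] at e4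
      omega
    have e5 := zero_of_not_pi e3 (fun e4 => by
      have e6 := (abs_le.1 (m.le H h ⟨y, e4⟩)).2
      rw [map_add, map_add, m.b1 h, m.b2 h] at e6
      omega) e1 e2
    exact fun x => LinearMap.congr_fun e5 x
  -- `t ∘ F'` is a multiple of the degree
  obtain ⟨c, hc⟩ : ∃ c : ℂ, ∀ d m, ∀ x ∈ 𝒜 (d, m), t (F' x) = c * d * y.q x := by
    have e1 := tan_comp ht hF0
    have e2 := wt_comp htw hR.hF
    rw [add_neg_cancel] at e2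
    exact weight_zero (fun e3 => H63X.c03_wt_ne_zero H ⟨y, e3⟩ rfl) e1 e2
  obtain ⟨d, mm, x, hx, hxt⟩ : ∃ d mm, ∃ x ∈ 𝒜 (d, mm), t x ≠ 0 := by
    by_contra hcon2
    push Not at hcon2
    apply ht0
    apply linearMap_ext_graded 𝒜
    rintro ⟨d, mm⟩ x hx
    rw [hcon2 d mm x hx, LinearMap.zero_apply]
  have hν := rt_nu H hR y hcon hF0
  have e1 := congrArg t (hR.br d mm x hx)
  rw [map_sub, htE, hc d _ _ (by simpa using hR.hE d mm x hx), hcon, mul_zero, sub_zero, map_neg,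
    map_smul, smul_eq_mul] at e1
  have e2 := (mul_eq_zero.1 (neg_eq_zero.1 e1.symm)).resolve_right hxt
  rw [htw d mm x hx hxt, map_add, hβ, map_nsmul, nsmul_eq_mul] at e2
  apply hNC
  push_cast at e2
  have e3 : (2 : ℂ) * N = 0 := by linear_combination e2 - (d : ℂ) * hν
  exact (mul_eq_zero.1 e3).resolve_left two_ne_zero

end

end Vale.Agent.P280.H309
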