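import Vale.Agent.P280.H60.Edge
import Vale.Agent.P280.H309.MidB

/-! P280, T7, helper309: interior weights which are half a vertex, the points with two negative
weights. -/

open DirectSum Vale.Agent.P280.T Vale.Agent.P280.H127

namespace Vale.Agent.P280.H309

open Vale.Agent.P280.N Vale.Agent.P280.H490 Vale.Agent.P280.H143 Vale.Agent.P280.H60
  Vale.Agent.P280.H690 Vale.Agent.P280.N.H989

section
variable {G : Type*} [AddCommGroup G]

theorem ls_nonneg (f : G →+ ℤ) {M : List G} (h : ∀ μ ∈ M, 0 ≤ f μ) : 0 ≤ f M.sum := by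
  rw [map_list_sum]
  apply List.sum_nonneg
  intro x hx
  obtain ⟨μ, hμ, rfl⟩ := List.mem_map.1 hx
  exact h μ hμ

theorem ls_le (f : G →+ ℤ) {M : List G} (h : ∀ μ ∈ M, 0 ≤ f μ) {μ : G} (hμ : μ ∈ M) :
    f μ ≤ f M.sum := by
  rw [map_list_sum]
  apply List.single_le_sum
  · intro x hx
    obtain ⟨ν, hν, rfl⟩ := List.mem_map.1 hx
    exact h ν hν
  · exact List.mem_map.2 ⟨μ, hμ, rfl⟩

theorem ls_zero (f : G →+ ℤ) {M : List G} (h : ∀ μ ∈ M, f μ = 0) : f M.sum = 0 := by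
  rw [map_list_sum]
  apply List.sum_eq_zero
  intro x hx
  obtain ⟨ν, hν, rfl⟩ := List.mem_map.1 hx
  exact h ν hν

theorem ls_pos (f : G →+ ℤ) {M : List G} (h : 0 < f M.sum) : ∃ μ ∈ M, 0 < f μ := by
  by_contra hcon
  push Not at hcon
  have h1 := ls_nonneg (-f) (M := M) (fun μ hμ => by
    rw [AddMonoidHom.neg_apply]
    have := hcon μ hμ
    omega)
  rw [AddMonoidHom.neg_apply] at h1
  omega

theorem ls_two (f : G →+ ℤ) {M : List G} (h : ∀ μ ∈ M, 0 ≤ f μ) {μ ν : G} (hμ : μ ∈ M)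
    (hν : ν ∈ M) (hne : μ ≠ ν) : f μ + f ν ≤ f M.sum := by
  induction M with
  | nil => exact absurd hμ (List.not_mem_nil)
  | cons x M ih =>
    rw [List.sum_cons, map_add]
    have hM : ∀ μ ∈ M, 0 ≤ f μ := fun μ hμ => h μ (List.mem_cons_of_mem _ hμ)
    rcases List.mem_cons.1 hμ with h1 | h1
    · rcases List.mem_cons.1 hν with h2 | h2
      · exact absurd (h1.trans h2.symm) hne
      · have := ls_le f hM h2
        rw [h1]
        omega
    · rcases List.mem_cons.1 hν with h2 | h2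
      · have := ls_le f hM h1
        rw [h2]
        omega
      · have h3 := ih hM h1 h2
        have h4 := h x List.mem_cons_self
        omega

end

theorem half_eq {r : ℕ} {x y : Fin r → ℤ} (h : x + x = y + y) : x = y := by
  funext i
  have := congrFun h i
  simp only [Pi.add_apply] at this
  omega

variable {r : ℕ} {R : Type} [CommRing R] [IsDomain R] [Algebra ℂ R]
  {𝒜 : ℕ × (Fin r → ℤ) → Submodule ℂ R} [GradedAlgebra 𝒜]

/-- The chamber is adapted to `φ`. -/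
structure Ad (𝒜 : ℕ × (Fin r → ℤ) → Submodule ℂ R) (c φ : (Fin r → ℤ) →+ ℤ) (N : ℤ)
    (e : Fin r → ℤ) : Prop where
  gen : ∀ μ, Wt 𝒜 μ → c μ ≠ 0
  ce : 0 < c e
  nn : ∀ μ, Wt 𝒜 μ → 0 < c μ → 0 ≤ φ μ
  big : ∀ μ, Wt 𝒜 μ → c e < c μ → N ≤ φ μ

section
variable {N : ℤ} {b : (Fin r → ℤ) → ((Fin r → ℤ) →+ ℤ)}
  {al : (Fin r → ℤ) → ℂ} {E F : (Fin r → ℤ) → Derivation ℂ R R} {a : (Fin r → ℤ) → FP 𝒜 → ℤ}
  {e A : Fin r → ℤ}

/-- The component of a weight which is half a vertex. -/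
theorem ks_half (H : H63X.Hyp 𝒜) (h : RD 𝒜 N b al E F a) (hAe : e + e = A) (hA : Vx 𝒜 A)
    (he : Wt 𝒜 e) :
    ∃ χ : Fin 1 → Fin r → ℤ, KS (H63X.VV H) {ω | Wt 𝒜 ω} b N e χ ∧ χ 0 = A := by
  have hN := h.N0
  have h0 : e ≠ 0 := H63X.c03_wt_ne_zero H he
  have hbe : b A e = N := by
    have e1 := (h.rt A hA).two
    rw [← hAe, map_add] at e1
    rw [← hAe]
    omega
  have hlV : e ∉ H63X.VV H := by
    intro h1
    obtain ⟨-, l, hl0, hl⟩ := (H63X.mem_VV H).1 h1
    have h2 := hl A hA.1 (by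
      intro h3
      apply h0
      rw [← hAe] at h3
      exact add_eq_right.1 h3)
    rw [← hAe, map_add] at h2
    omega
  obtain ⟨n, χ, c⟩ := exists_KS (h.rs H) (W := {ω | Wt 𝒜 ω}) he hlV (fun l hl => ⟨A, hA.1, by
    rw [← hAe, map_add]
    omega⟩)
  have h1 := c.one_le h0
  have hall : ∀ j, χ j = A := by
    intro j
    have hv := (H63X.mem_VV H).1 (c.mem j)
    have h2 := c.bl j
    symm
    refine (rt_eq H hN hv (h.rt _ hv) hA.1).1 ?_
    rw [← hAe, map_add, h2]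
    omega
  have hn : n = 1 := by
    have h2 : ∀ i j : Fin n, i = j := fun i j => c.inj ((hall i).trans (hall j).symm)
    by_contra hne
    have := congrArg Fin.val (h2 ⟨0, by omega⟩ ⟨1, by omega⟩)
    simp at this
  subst hn
  exact ⟨χ, c, hall 0⟩

theorem exists_mp (H : H63X.Hyp 𝒜) (h : RD 𝒜 N b al E F a) (hAe : e + e = A) (hA : Vx 𝒜 A)
    (he : Wt 𝒜 e) {x : Fin r → ℤ} (hx : Wt 𝒜 x) (hb : b A x = N) (hne : x ≠ e) :
    ∃ ψ, MP 𝒜 b A ψ x := by
  obtain ⟨χ, c, hχ⟩ := ks_half H h hAe hA he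
  obtain ⟨ψ, hψ, h1, h2, h3, -⟩ := edge c hx (by rw [hχ]; exact hb) hne
  rw [hχ] at h1 h2 h3
  exact ⟨ψ, hA, (H63X.mem_VV H).1 hψ, h3, h2, by rw [h1]; abel, hx⟩

theorem dich (H : H63X.Hyp 𝒜) (h : RD 𝒜 N b al E F a) (hAe : e + e = A) (hA : Vx 𝒜 A)
    (he : Wt 𝒜 e) {ψ : Fin r → ℤ} (hψ : Vx 𝒜 ψ) (h1 : ψ ≠ A) (h2 : ψ ≠ -A) :
    b ψ A = 0 ∧ b A ψ = 0 := by
  obtain ⟨χ, c, hχ⟩ := ks_half H h hAe hA he
  rcases ks_dich c ((H63X.mem_VV H).2 hψ) with h3 | h3 | h3
  · exact absurd (h3.trans hχ) h1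
  · exact absurd (h3.trans (by rw [hχ])) h2
  · rw [hχ] at h3
    exact h3.2

/-- The case where the root is the double, main part. -/
theorem c3_two (H : H63X.Hyp 𝒜) (hBd : Bd 𝒜) (h : RD 𝒜 N b al E F a) (hAe : e + e = A)
    (hA : Vx 𝒜 A) (he : Wt 𝒜 e) {c : (Fin r → ℤ) →+ ℤ} (ad : Ad 𝒜 c (b A) N e) {z : FP 𝒜}
    {d0 d1 : Fin r → ℤ} (hd0 : z.Pi (-d0)) (hd1 : z.Pi (-d1)) (p1 : 0 < c d1)
    (hz : ∀ ψ, z.Pi ψ → ψ ≠ -d0 → ψ ≠ -d1 → 0 < c ψ) (hA1 : ¬ z.Pi A) (hA2 : ¬ z.Pi (-A))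
    (q0 : b A d0 = N) (q1 : b A d1 = 0) {k1 : ℕ} (hk1 : 1 ≤ k1) {M : List (Fin r → ℤ)}
    (hM : ∀ μ ∈ M, z.Pi μ ∧ 0 < c μ) (qM : ∀ μ ∈ M, b A μ = 0)
    (heq : e = d0 + k1 • d1 + M.sum) : False := by
  have hN := h.N0
  have hbA := (h.rt A hA).two
  have hbAe : b A e = N := by
    have e1 := hbA
    rw [← hAe, map_add] at e1
    rw [← hAe]
    omega
  have hk1' : (1 : ℤ) ≤ k1 := by exact_mod_cast hk1
  have hd0w : Wt 𝒜 d0 := by
    have := H641.wt_neg H ⟨z, hd0⟩
    rwa [neg_neg] at this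
  have hcM : 0 ≤ c M.sum := ls_nonneg c fun μ hμ => (hM μ hμ).2.le
  have hkc : c d1 ≤ k1 * c d1 := by nlinarith
  have hce := congrArg c heq
  rw [map_add, map_add, map_nsmul, nsmul_eq_mul] at hce
  have hd0e : d0 ≠ e := by
    intro h1
    rw [h1] at hce
    omega
  -- the weights on which `b A` is not zero
  have neg : ∀ μ, z.Pi μ → b A μ < 0 → μ = -d0 := by
    intro μ hμ h1
    by_contra h2
    by_cases h3 : μ = -d1
    · rw [h3, map_neg, q1] at h1
      omega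
    · have := ad.nn μ ⟨z, hμ⟩ (hz μ hμ h2 h3)
      omega
  have pos : ∀ μ, z.Pi μ → 0 < b A μ → μ = A - d0 := by
    intro μ hμ h1
    have h2 := H475T.root_down H hN (h.root A hA) hA1 hμ h1
    have h3 : b A μ ≤ N := by
      by_contra h4
      push Not at h4
      rw [(rt_eq H hN hA (h.rt A hA) ⟨z, hμ⟩).1 h4] at hμ
      exact hA1 hμ
    have h4 := neg _ h2 (by rw [map_sub, hbA]; omega)
    rw [sub_eq_iff_eq_add] at h4
    rw [h4]
    abel
  obtain ⟨x, hxd⟩ : ∃ x, x = A - d0 := ⟨_, rfl⟩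
  rw [← hxd] at pos
  have hx : z.Pi x := by
    have h1 := H475T.root_up H hN (h.root A hA) hA2 hd0 (by rw [map_neg, q0]; omega)
    rwa [neg_add_eq_sub, ← hxd] at h1
  have hxe : x ≠ e := by
    intro h1
    apply hd0e
    rw [hxd, ← hAe, sub_eq_iff_eq_add] at h1
    exact (add_left_cancel h1).symm
  have hbx : b A x = N := by rw [hxd, map_sub, hbA, q0]; ring
  have hnd0 : ¬ z.Pi d0 := by
    intro h1
    have h2 := pos d0 h1 (by omega)
    apply hd0e
    apply half_eq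
    rw [hAe]
    nth_rewrite 1 [h2]
    rw [hxd, sub_add_cancel]
  -- the second vertex
  obtain ⟨ψ1, m1⟩ := exists_mp H h hAe hA he ⟨z, hx⟩ hbx hxe
  have hψ1 := m1.v2
  have hb1 := (h.rt ψ1 hψ1).two
  have hψ1x : ψ1 = x + x - A := by rw [m1.hw]; abel
  have hψ1W : ψ1 ∈ H63X.VV H := (H63X.mem_VV H).2 hψ1
  have nb : ∀ ω, Wt 𝒜 ω → b (-ψ1) ω = -b ψ1 ω := fun ω hω => (h.rs H).neg_b hψ1W hω
  have hdd : d0 + d0 = A - ψ1 := by rw [hψ1x, hxd]; abel
  have m0 : MP 𝒜 b A (-ψ1) d0 :=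
    ⟨hA, H63X.c03_vx_neg H hψ1, by rw [map_neg, m1.h1, neg_zero], by
      rw [nb A hA.1, m1.h2, neg_zero], by rw [hdd, sub_eq_add_neg], hd0w⟩
  have hb1e : b ψ1 e = 0 := by
    have e1 := m1.h2
    rw [← hAe, map_add] at e1
    omega
  obtain ⟨ε, hε⟩ : ∃ ε, ε = x - e := ⟨_, rfl⟩
  have hεε : ε + ε = ψ1 := by rw [hε, hψ1x, ← hAe]; abel
  have hεeq : ε = k1 • d1 + M.sum := by
    have e1 : k1 • d1 + M.sum = e - d0 := by
      nth_rewrite 1 [heq]
      abel
    rw [e1, hε, hxd, ← hAe]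
    abel
  have hcε : c ε = k1 * c d1 + c M.sum := by
    rw [hεeq, map_add, map_nsmul, nsmul_eq_mul]
  have hcψ1 : c ψ1 = c ε + c ε := by rw [← hεε, map_add]
  have hb1x := m1.b2 h
  have hb1ε : b ψ1 ε = N := by rw [hε, map_sub, hb1x, hb1e, sub_zero]
  have hb1d1 : b ψ1 d1 ≤ 0 := by
    by_contra h1
    push Not at h1
    have h2 := m0.down H hBd h hnd0 hd1 (by
      rw [nb _ ⟨z, hd1⟩, map_neg, map_neg, q1]
      omega)
    have h3 := neg _ h2 (by rw [map_sub, map_neg, q1, q0]; omega)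
    have h4 : d1 = 0 := by
      rw [sub_eq_add_neg] at h3
      exact neg_eq_zero.1 (add_eq_right.1 h3)
    rw [h4, map_zero] at p1
    exact absurd p1 (lt_irrefl _)
  have hb1M : 0 < b ψ1 M.sum := by
    have e1 := congrArg (b ψ1) hεeq
    rw [hb1ε, map_add, map_nsmul, nsmul_eq_mul] at e1
    nlinarith
  obtain ⟨μ, hμM, hμ1⟩ := ls_pos (b ψ1) hb1M
  obtain ⟨hμz, hμc⟩ := hM μ hμM
  have hqμ := qM μ hμM
  have hcμ : c μ ≤ c M.sum := ls_le c (fun ν hν => (hM ν hν).2.le) hμM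
  have hbμ : b ψ1 μ = N := by
    have h1 : b ψ1 μ ≤ N := by
      by_contra h2
      push Not at h2
      have h3 := (rt_eq H hN hψ1 (h.rt ψ1 hψ1) ⟨z, hμz⟩).1 h2
      rw [h3, hcψ1] at hcμ
      omega
    obtain ⟨κ, hκ⟩ := (h.root ψ1 hψ1).int μ ⟨z, hμz⟩
    rw [hκ] at h1 hμ1 ⊢
    have h2 : 0 < κ := pos_of_mul_pos_right hμ1 hN.le
    have h3 : κ ≤ 1 := by
      by_contra h4
      push Not at h4
      nlinarith
    have h4 : κ = 1 := by omega
    rw [h4, mul_one]
  have hμε : μ ≠ ε := by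
    intro h1
    rw [h1] at hcμ
    omega
  have hεw : Wt 𝒜 ε := by
    have h1 := m1.reflect H hBd h (H641.wt_neg H he) (by rw [map_neg, hbAe]) (by
      rw [map_neg, hb1e, neg_zero])
    rw [neg_add_eq_sub] at h1
    rwa [hε]
  -- the third vertex
  obtain ⟨ψ2, m2⟩ := exists_mp H h hεε hψ1 hεw ⟨z, hμz⟩ hbμ hμε
  have hAψ2 : b A ψ2 = 0 := by
    have h1 := congrArg (b A) m2.hw
    rw [map_add, map_add, hqμ, m1.h1] at h1
    omega
  have hψ2A : b ψ2 A = 0 := by
    refine (dich H h hAe hA he m2.v2 ?_ ?_).1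
    · intro h1
      rw [h1, hbA] at hAψ2
      omega
    · intro h1
      rw [h1, map_neg, hbA] at hAψ2
      omega
  have hb1d0 : b ψ1 d0 = -N := by
    have h1 := congrArg (b ψ1) hdd
    rw [map_add, map_sub, m1.h2, hb1] at h1
    omega
  have hb2d0 : b ψ2 d0 = 0 := by
    have h1 := congrArg (b ψ2) hdd
    rw [map_add, map_sub, hψ2A, m2.h2] at h1
    omega
  have m3 : MP 𝒜 b A ψ2 (d0 + μ) :=
    ⟨hA, m2.v2, hAψ2, hψ2A, by
      have h1 : d0 + μ + (d0 + μ) = d0 + d0 + (μ + μ) := by abel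
      rw [h1, hdd, m2.hw]
      abel, m2.reflect H hBd h hd0w hb1d0 hb2d0⟩
  have hg1 : ¬ z.Pi (d0 + μ) := by
    intro h1
    have h2 := pos _ h1 (by rw [map_add, q0, hqμ]; omega)
    have h3 : μ = ψ1 := by
      rw [hxd] at h2
      have h4 : μ = A - (d0 + d0) := by
        rw [← sub_sub, ← h2]
        abel
      rw [h4, hdd]
      abel
    rw [h3, hb1] at hbμ
    omega
  have hg2 : ¬ z.Pi (-(d0 + μ)) := by
    intro h1
    have h2 := neg _ h1 (by rw [map_neg, map_add, q0, hqμ]; omega)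
    have h3 : μ = 0 := add_eq_left.1 (neg_inj.1 h2)
    rw [h3, map_zero] at hμc
    exact absurd hμc (lt_irrefl _)
  have up' : ∀ ν, z.Pi ν → b A ν = 0 → 0 < b ψ2 ν → ν = μ := by
    intro ν hν h1 h2
    have h3 := m3.down H hBd h hg1 hν (by omega)
    have h4 := neg _ h3 (by rw [map_sub, map_add, q0, hqμ, h1]; omega)
    rw [sub_eq_iff_eq_add] at h4
    rw [h4]
    abel
  have dn' : ∀ ν, z.Pi ν → b A ν = 0 → b ψ2 ν < 0 → ν = ψ1 - μ := by
    intro ν hν h1 h2
    have h3 := m3.up H hBd h hg2 hν (by omega)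
    have h4 := pos _ h3 (by rw [map_add, map_add, q0, hqμ, h1]; omega)
    have h5 : ν = x - (d0 + μ) := by rw [← h4]; abel
    rw [h5, hψ1x, hxd]
    abel
  have hb2ε : b ψ2 ε = 0 := by
    have h1 := m2.h2
    rw [← hεε, map_add] at h1
    omega
  have e2 := congrArg (b ψ2) hεeq
  rw [hb2ε, map_add, map_nsmul, nsmul_eq_mul] at e2
  have hb2d1 : 0 ≤ b ψ2 d1 := by
    by_contra h1
    push Not at h1
    have h2 := up' (-d1) hd1 (by rw [map_neg, q1, neg_zero]) (by rw [map_neg]; omega)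
    rw [← h2, map_neg] at hμc
    omega
  have hb2M : b ψ2 M.sum ≤ 0 := by nlinarith
  have hb2μ := m2.b2 h
  obtain ⟨ν, hν, hν2⟩ : ∃ ν ∈ M, b ψ2 ν < 0 := by
    by_contra hcon
    push Not at hcon
    have := ls_le (b ψ2) hcon hμM
    omega
  have h5 := dn' ν (hM ν hν).1 (qM ν hν) hν2
  have h6 := ls_two c (fun ρ hρ => (hM ρ hρ).2.le) hν hμM (by
    rintro rfl
    omega)
  rw [h5, map_sub, hcψ1] at h6
  omega

/-- **(C3) in the adapted chamber.** -/
theorem c3 (H : H63X.Hyp 𝒜) (hBd : Bd 𝒜) (h : RD 𝒜 N b al E F a) (hAe : e + e = A)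
    (hA : Vx 𝒜 A) (he : Wt 𝒜 e) {c : (Fin r → ℤ) →+ ℤ} (ad : Ad 𝒜 c (b A) N e) {z : FP 𝒜}
    {d0 d1 : Fin r → ℤ} (hd0 : z.Pi (-d0)) (hd1 : z.Pi (-d1)) (p0 : 0 < c d0) (p1 : 0 < c d1)
    (hz : ∀ ψ, z.Pi ψ → ψ ≠ -d0 → ψ ≠ -d1 → 0 < c ψ) {w : Fin r → ℤ} (hw : Wt 𝒜 w)
    (hcw : c e < c w) (hwz : ¬ z.Pi w) {k0 k1 : ℕ} (hk0 : 1 ≤ k0) (hk1 : 1 ≤ k1)
    {M : List (Fin r → ℤ)} (hM : ∀ μ ∈ M, z.Pi μ ∧ 0 < c μ) :
    w ≠ e + k0 • d0 + k1 • d1 + M.sum := by
  intro heq
  have hN := h.N0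
  have hbA := (h.rt A hA).two
  have hbAe : b A e = N := by
    have e1 := hbA
    rw [← hAe, map_add] at e1
    rw [← hAe]
    omega
  have hk0' : (1 : ℤ) ≤ k0 := by exact_mod_cast hk0
  have hk1' : (1 : ℤ) ≤ k1 := by exact_mod_cast hk1
  have hd0w : Wt 𝒜 d0 := by
    have := H641.wt_neg H ⟨z, hd0⟩
    rwa [neg_neg] at this
  have hd1w : Wt 𝒜 d1 := by
    have := H641.wt_neg H ⟨z, hd1⟩
    rwa [neg_neg] at this
  have f0 := ad.nn d0 hd0w p0
  have f1 := ad.nn d1 hd1w p1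
  have fM : ∀ μ ∈ M, 0 ≤ b A μ := fun μ hμ => ad.nn μ ⟨z, (hM μ hμ).1⟩ (hM μ hμ).2
  have fS := ls_nonneg (b A) fM
  have cS := ls_nonneg c fun μ hμ => (hM μ hμ).2.le
  have eA := congrArg (b A) heq
  have ec := congrArg c heq
  rw [map_add, map_add, map_add, map_nsmul, map_nsmul, nsmul_eq_mul, nsmul_eq_mul] at eA ec
  rw [hbAe] at eA
  have kf0 : b A d0 ≤ k0 * b A d0 := by nlinarith
  have kf1 : b A d1 ≤ k1 * b A d1 := by nlinarith
  have kc0 : c d0 ≤ k0 * c d0 := by nlinarith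
  have kc1 : c d1 ≤ k1 * c d1 := by nlinarith
  have neg : ∀ μ, z.Pi μ → c μ < 0 → μ = -d0 ∨ μ = -d1 := by
    intro μ hμ h1
    by_contra h2
    push Not at h2
    have := hz μ hμ h2.1 h2.2
    omega
  have neg' : ∀ μ, z.Pi μ → b A μ < 0 → μ = -d0 ∨ μ = -d1 := by
    intro μ hμ h1
    refine neg μ hμ ?_
    have h2 := ad.gen μ ⟨z, hμ⟩
    by_contra h3
    have := ad.nn μ ⟨z, hμ⟩ (by omega)
    omega
  have hwN := ad.big w hw hcw
  have hwe : w ≠ e := by
    rintro rfl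
    exact absurd hcw (lt_irrefl _)
  by_cases hwA : w = A
  · -- the double
    rw [hwA, hbA] at eA
    have hnA : ¬ z.Pi (-A) := by
      intro h1
      rcases neg' _ h1 (by rw [map_neg, hbA]; omega) with h2 | h2
      · have h3 := congrArg (b A) (neg_inj.1 h2)
        rw [hbA] at h3
        linarith
      · have h3 := congrArg (b A) (neg_inj.1 h2)
        rw [hbA] at h3
        linarith
    rw [hwA] at hwz
    have heq' : e = k0 • d0 + k1 • d1 + M.sum := by
      rw [hwA, ← hAe, add_assoc, add_assoc] at heq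
      have := add_left_cancel heq
      rw [add_assoc]
      exact this
    by_cases g0 : b A d0 = 0
    · by_cases g1 : b A d1 = 0
      · have hnn : ∀ μ, z.Pi μ → 0 ≤ b A μ := by
          intro μ hμ
          by_contra h1
          push Not at h1
          rcases neg' μ hμ h1 with h2 | h2
          · rw [h2, map_neg, g0] at h1
            omega
          · rw [h2, map_neg, g1] at h1
            omega
        have hz0 : ∀ μ ∈ M, b A μ = 0 := by
          intro μ hμ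
          obtain ⟨h1, -⟩ := hM μ hμ
          by_contra h2
          have h3 : 0 < b A μ := lt_of_le_of_ne (hnn μ h1) (Ne.symm h2)
          have h4 := hnn _ (H475T.root_down H hN (h.root A hA) hwz h1 h3)
          rw [map_sub, hbA] at h4
          have h5 := (rt_eq H hN hA (h.rt A hA) ⟨z, h1⟩).1 (by omega)
          exact hwz (h5 ▸ h1)
        rw [g0, g1, ls_zero _ hz0] at eA
        omega
      · -- `d1` is the root
        obtain ⟨κ, hκ⟩ := (h.root A hA).int d1 hd1w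
        have g1' : 0 < b A d1 := lt_of_le_of_ne f1 (Ne.symm g1)
        have hκ1 : 1 ≤ κ := by
          rw [hκ] at g1'
          exact pos_of_mul_pos_right g1' hN.le
        have q1 : b A d1 = N := by
          rw [hκ] at kf1 ⊢
          have : κ = 1 := by
            by_contra h2
            have : 2 ≤ κ := by omega
            nlinarith
          rw [this, mul_one]
        have hk : k1 = 1 := by
          rw [q1] at eA
          by_contra h2
          have h3 : (2 : ℤ) ≤ k1 := by exact_mod_cast (by omega : 2 ≤ k1)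
          nlinarith
        rw [hk, q1, g0] at eA
        have hM0 : ∀ μ ∈ M, b A μ = 0 := fun μ hμ => by
          have := ls_le (b A) fM hμ
          have := fM μ hμ
          push_cast at eA
          omega
        refine c3_two H hBd h hAe hA he ad hd1 hd0 p0 (fun ψ h1 h2 h3 => hz ψ h1 h3 h2) hwz hnA q1
          g0 hk0 hM hM0 ?_
        rw [heq', hk, one_smul]
        abel
    · -- `d0` is the root
      obtain ⟨κ, hκ⟩ := (h.root A hA).int d0 hd0w
      have g0' : 0 < b A d0 := lt_of_le_of_ne f0 (Ne.symm g0)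
      have hκ1 : 1 ≤ κ := by
        rw [hκ] at g0'
        exact pos_of_mul_pos_right g0' hN.le
      have q0 : b A d0 = N := by
        rw [hκ] at kf0 ⊢
        have : κ = 1 := by
          by_contra h2
          have : 2 ≤ κ := by omega
          nlinarith
        rw [this, mul_one]
      have hk : k0 = 1 := by
        rw [q0] at eA
        by_contra h2
        have h3 : (2 : ℤ) ≤ k0 := by exact_mod_cast (by omega : 2 ≤ k0)
        nlinarith
      rw [hk, q0] at eA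
      push_cast at eA
      have q1 : b A d1 = 0 := by omega
      have hM0 : ∀ μ ∈ M, b A μ = 0 := fun μ hμ => by
        have := ls_le (b A) fM hμ
        have := fM μ hμ
        omega
      refine c3_two H hBd h hAe hA he ad hd0 hd1 p1 hz hwz hnA q0 q1 hk1 hM hM0 ?_
      rw [heq', hk, one_smul]
  · -- the sum of `e` and an orthogonal letter
    have hwN' : b A w = N := by
      have h1 : b A w ≤ N := by
        by_contra h2
        push Not at h2
        exact hwA ((rt_eq H hN hA (h.rt A hA) hw).1 h2)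
      omega
    obtain ⟨ψ, m⟩ := exists_mp H h hAe hA he hw hwN' hwe
    rw [hwN'] at eA
    have g0 : b A d0 = 0 := by omega
    have g1 : b A d1 = 0 := by omega
    have hnn : ∀ μ, z.Pi μ → 0 ≤ b A μ := by
      intro μ hμ
      by_contra h1
      push Not at h1
      rcases neg' μ hμ h1 with h2 | h2
      · rw [h2, map_neg, g0] at h1
        omega
      · rw [h2, map_neg, g1] at h1
        omega
    have hnw : ¬ z.Pi (-w) := by
      intro h1
      have := hnn _ h1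
      rw [map_neg, hwN'] at this
      omega
    have hcψ : c ψ = (c w - c e) + (c w - c e) := by
      have h1 := congrArg c m.hw
      rw [map_add, map_add, ← hAe, map_add] at h1
      omega
    have hA1 : ¬ z.Pi A := by
      intro h1
      obtain ⟨E', F', hR, -⟩ := mid H hBd h m.v1 m.v2 m.h1 m.h2 m.hw m.wt
      have hw0 := H63X.c03_wt_ne_zero H hw
      have hν := rt_nu H hR z (val_zero z hw0 hR.hE hwz) (val_zero z (neg_ne_zero.2 hw0) hR.hF hnw)
      have a1 := h.av A hA z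
      have a2 := h.av ψ m.v2 z
      have hNC : (N : ℂ) ≠ 0 := by exact_mod_cast hN.ne'
      have a3 : (N : ℂ) * ((a A z : ℂ) + (a ψ z : ℂ)) = 0 := by
        rw [AddMonoidHom.add_apply] at hν
        push_cast at hν
        linear_combination -a1 - a2 - hν
      have a4 : a A z + a ψ z = 0 := by
        have := (mul_eq_zero.1 a3).resolve_left hNC
        exact_mod_cast this
      have a5 := h.pos H hA h1
      have a6 : z.Pi (-ψ) := by
        by_contra h2
        have := h.ap ψ m.v2 z h2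
        omega
      rcases neg _ a6 (by rw [map_neg, hcψ]; omega) with h2 | h2
      · rw [neg_inj.1 h2] at hcψ
        omega
      · rw [neg_inj.1 h2] at hcψ
        omega
    have hz0 : ∀ μ, z.Pi μ → b A μ = 0 := by
      intro μ h1
      by_contra h2
      have h3 : 0 < b A μ := lt_of_le_of_ne (hnn μ h1) (Ne.symm h2)
      have h4 := hnn _ (H475T.root_down H hN (h.root A hA) hA1 h1 h3)
      rw [map_sub, hbA] at h4
      have h5 := (rt_eq H hN hA (h.rt A hA) ⟨z, h1⟩).1 (by omega)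
      exact hA1 (h5 ▸ h1)
    have hz1 : ∀ μ, z.Pi μ → b ψ μ = 0 := by
      intro μ h1
      have h2 := hz0 μ h1
      by_contra h3
      rcases lt_or_gt_of_ne h3 with h4 | h4
      · have h5 := hz0 _ (m.up H hBd h hnw h1 (by omega))
        rw [map_add, h2, hwN'] at h5
        omega
      · have h5 := hz0 _ (m.down H hBd h hwz h1 (by omega))
        rw [map_sub, h2, hwN'] at h5
        omega
    have e1 := congrArg (b ψ) heq
    have e2 : b ψ e = 0 := by
      have e3 := m.h2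
      rw [← hAe, map_add] at e3
      omega
    have e3 := hz1 _ hd0
    have e4 := hz1 _ hd1
    rw [map_neg, neg_eq_zero] at e3 e4
    rw [map_add, map_add, map_add, map_nsmul, map_nsmul, e2, e3, e4,
      ls_zero _ fun μ hμ => hz1 μ (hM μ hμ).1, m.b2 h, smul_zero, smul_zero] at e1
    omega

end

end Vale.Agent.P280.H309
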