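import Vale.Agent.P280.H60.Crit
import Vale.Agent.P280.H143.Cross
import Vale.Agent.P280.H309.Int1

/-! P280, T7, helper309: **(Int) for the weights which are half a vertex.** -/

open DirectSum Vale.Agent.P280.T Vale.Agent.P280.H127

namespace Vale.Agent.P280.H309

open Vale.Agent.P280.N Vale.Agent.P280.H490 Vale.Agent.P280.H143 Vale.Agent.P280.H60
  Vale.Agent.P280.H690 Vale.Agent.P280.N.H989 Vale.Agent.P280.H749

variable {r : ℕ} {R : Type} [CommRing R] [IsDomain R] [Algebra ℂ R]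
  {𝒜 : ℕ × (Fin r → ℤ) → Submodule ℂ R} [GradedAlgebra 𝒜]

omit [IsDomain R] in
/-- A bound for a functional on the weights. -/
theorem exists_bound (H : H63X.Hyp 𝒜) (c : (Fin r → ℤ) →+ ℤ) :
    ∃ B : ℤ, 0 ≤ B ∧ ∀ μ, Wt 𝒜 μ → |c μ| ≤ B := by
  classical
  refine ⟨∑ μ ∈ (H63X.C07.wt_finite H).toFinset, |c μ|,
    Finset.sum_nonneg fun _ _ => abs_nonneg _, fun μ hμ => ?_⟩
  exact Finset.single_le_sum (f := fun μ => |c μ|) (fun _ _ => abs_nonneg _)
    ((H63X.C07.wt_finite H).mem_toFinset.2 hμ)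

section
variable {N : ℤ} {b : (Fin r → ℤ) → ((Fin r → ℤ) →+ ℤ)}
  {al : (Fin r → ℤ) → ℂ} {E F : (Fin r → ℤ) → Derivation ℂ R R} {a : (Fin r → ℤ) → FP 𝒜 → ℤ}
  {e A : Fin r → ℤ}

/-- The base chamber. -/
theorem half_base (H : H63X.Hyp 𝒜) (hdat : CritData 𝒜) (hBd : Bd 𝒜) (h : RD 𝒜 N b al E F a)
    (hAe : e + e = A) (hA : Vx 𝒜 A) (he : Wt 𝒜 e) {c : (Fin r → ℤ) →+ ℤ}
    (ad : Ad 𝒜 c (b A) N e) {p : FP 𝒜} (hp : Pos c p) : Lf 𝒜 p e := by
  classical
  have hN := h.N0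
  -- the fields
  have key : ∀ w : {w : Fin r → ℤ // Wt 𝒜 w ∧ c e < c w}, ∃ D : Derivation ℂ R R,
      H93.IsHField 𝒜 w.1 D ∧ ∀ y : FP 𝒜, y.Pi w.1 → (∃ x, y.q (D x) ≠ 0) ∧ One 𝒜 y w.1 := by
    rintro ⟨w, hw, hcw⟩
    by_cases hwA : w = A
    · subst hwA
      refine ⟨E w, (h.rt w hA).hE, fun y hy => ⟨?_, (hBd y w hy (bdy_of_vx hA)).2⟩⟩
      by_contra hcon
      push Not at hcon
      exact (h.root w hA).atE y hy (not_valV_iff.2 hcon)
    · have h1 := ad.big w hw hcw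
      have h2 : b A w = N := by
        by_contra h3
        exact hwA ((rt_eq H hN hA (h.rt A hA) hw).1 (lt_of_le_of_ne h1 (Ne.symm h3)))
      obtain ⟨ψ, m⟩ := exists_mp H h hAe hA he hw h2 (by
        rintro rfl
        exact absurd hcw (lt_irrefl _))
      obtain ⟨E', F', hR, -⟩ := mid H hBd h m.v1 m.v2 m.h1 m.h2 m.hw m.wt
      exact ⟨E', hR.hE, fun y hy => ⟨m.val H hBd h hR hy, (hBd y w hy (m.bdy H h)).2⟩⟩
  choose D hD hval using key
  have hfin : {w : Fin r → ℤ | Wt 𝒜 w ∧ c e < c w}.Finite :=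
    (H63X.C07.wt_finite H).subset fun w hw => hw.1
  have : Fintype {w : Fin r → ℤ // Wt 𝒜 w ∧ c e < c w} := hfin.fintype
  refine crit_of_data H hdat ad.gen hp (fun w : {w : Fin r → ℤ // Wt 𝒜 w ∧ c e < c w} => w.1)
    Subtype.val_injective D hD (fun w => w.2.2) (fun y w hy => hval w y hy) ?_ ?_
  · intro y b0 W ω hω k M hk hM heq
    refine ⟨⟨ω, ⟨y, hω⟩, ?_⟩, rfl⟩
    have h1 := congrArg c heq
    rw [map_add, map_add, map_nsmul, nsmul_eq_mul] at h1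
    have h2 := ls_nonneg c fun μ hμ => (hM μ hμ).2.le
    have h3 : (1 : ℤ) ≤ k := by exact_mod_cast hk
    have h4 := W.pos
    nlinarith
  · intro z d0 d1 hd0 hd1 p0 p1 hz _ w
    by_cases hw : z.Pi w.1
    · exact Or.inl (hval w z hw).1
    · right
      intro k k' M hk hk' hM
      exact c3 H hBd h hAe hA he ad hd0 hd1 p0 p1 hz w.2.1 w.2.2 hw hk hk' hM

/-- The adapted chamber. -/
theorem exists_ad (H : H63X.Hyp 𝒜) (h : RD 𝒜 N b al E F a) (hAe : e + e = A) (hA : Vx 𝒜 A)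
    {c : (Fin r → ℤ) →+ ℤ} (hc : ∀ μ, Wt 𝒜 μ → c μ ≠ 0) (hce : 0 < c e) (he : Wt 𝒜 e)
    {p : FP 𝒜} (hp : ∀ ψ, p.Pi ψ → 0 < b A ψ ∨ (b A ψ = 0 ∧ 0 < c ψ)) :
    ∃ c' : (Fin r → ℤ) →+ ℤ, Ad 𝒜 c' (b A) N e ∧ Pos c' p := by
  have hN := h.N0
  have hbAe : b A e = N := by
    have e1 := (h.rt A hA).two
    rw [← hAe, map_add] at e1
    rw [← hAe]
    omega
  obtain ⟨B, hB0, hB⟩ := exists_bound H c
  set c' : (Fin r → ℤ) →+ ℤ := (2 * B + 1) • b A + c with hc'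
  have hv : ∀ ω, c' ω = (2 * B + 1) * b A ω + c ω := fun ω => by
    rw [hc', AddMonoidHom.add_apply, AddMonoidHom.smul_apply, smul_eq_mul]
  refine ⟨c', ⟨fun μ hμ => ?_, ?_, fun μ hμ h1 => ?_, fun μ hμ h1 => ?_⟩, fun ψ hψ => ?_⟩
  · rw [hv]
    have h1 := abs_le.1 (hB μ hμ)
    rcases lt_trichotomy (b A μ) 0 with h2 | h2 | h2
    · nlinarith
    · rw [h2, mul_zero, zero_add]
      exact hc μ hμ
    · nlinarith
  · rw [hv, hbAe]
    nlinarith
  · rw [hv] at h1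
    have h2 := abs_le.1 (hB μ hμ)
    by_contra h3
    push Not at h3
    nlinarith
  · rw [hv, hv, hbAe] at h1
    have h2 := abs_le.1 (hB μ hμ)
    have h3 := abs_le.1 (hB e he)
    by_contra h4
    push Not at h4
    nlinarith
  · rw [hv]
    have h1 := abs_le.1 (hB ψ ⟨p, hψ⟩)
    rcases hp ψ hψ with h2 | ⟨h2, h3⟩
    · nlinarith
    · rw [h2, mul_zero, zero_add]
      exact h3.le

end

/-- **(Int), `m = 1`.** The tangent vectors at a source whose weight is half a vertex are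
liftable. -/
theorem int_half (H : H63X.Hyp 𝒜) (hdat : CritData 𝒜) (hBd : Bd 𝒜) {c : (Fin r → ℤ) →+ ℤ}
    (hc : ∀ μ, Wt 𝒜 μ → c μ ≠ 0) {p : FP 𝒜} (hp : Pos c p) {e : Fin r → ℤ}
    (hA : Vx 𝒜 (2 • e)) : Lf 𝒜 p e := by
  by_cases hpe : p.Pi e
  swap
  · exact lf_of_not_pi p hpe
  obtain ⟨N, b, al, E, F, a, h⟩ := exists_RD H
  have hN := h.N0
  obtain ⟨A, hAe⟩ : ∃ A, e + e = A := ⟨_, rfl⟩
  rw [two_nsmul, hAe] at hA
  have he : Wt 𝒜 e := ⟨p, hpe⟩
  have hce : 0 < c e := lt_of_le_of_ne (hp e hpe) (hc e he).symm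
  have hbA := (h.rt A hA).two
  have hbAe : b A e = N := by
    have e1 := hbA
    rw [← hAe, map_add] at e1
    rw [← hAe]
    omega
  refine cross H (φ := b A) hc (fun w hw h1 h2 k hk => ?_) (fun q hq => ?_) p hp
  · have hk' : (1 : ℤ) ≤ k := by exact_mod_cast hk
    obtain ⟨κ, hκ⟩ := (h.root A hA).int w hw
    have hκ1 : κ ≤ -1 := by
      rw [hκ] at h2
      by_contra h3
      have : 0 ≤ κ := by omega
      nlinarith
    have h3 : b A (e - k • w) = N + k * (-κ) * N := by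
      rw [map_sub, map_nsmul, hbAe, hκ, nsmul_eq_mul]
      ring
    have h4 : 1 ≤ k * (-κ) := by nlinarith
    have h5 : N + N ≤ b A (e - k • w) := by
      rw [h3]
      nlinarith
    refine ⟨fun h6 => ?_, fun h6 => ?_⟩
    · rw [h6, map_zero] at h5
      omega
    · have h7 := (rt_eq H hN hA (h.rt A hA) h6).1 (by omega)
      rw [h7, hbA] at h3
      have h8 : k * (-κ) * N = 1 * N := by linarith
      have h9 : (k : ℤ) * (-κ) = 1 := mul_right_cancel₀ hN.ne' h8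
      have h10 : (k : ℤ) = 1 := by nlinarith
      have h11 : k = 1 := by exact_mod_cast h10
      rw [h11, one_smul, ← hAe, sub_eq_add_neg] at h7
      have h12 := congrArg c (add_left_cancel h7)
      rw [map_neg] at h12
      omega
  · obtain ⟨c', ad, hc'⟩ := exists_ad H h hAe hA hc hce he hq
    exact half_base H hdat hBd h hAe hA he ad hc'

end Vale.Agent.P280.H309
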