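import Vale.Agent.P280.H641.Src
import Vale.Agent.P280.H60.Fin
import Vale.Agent.P280.H309.Int2

/-! P280, T7, helper309: interior weights which are half a vertex, in the form of the assembly. -/

open DirectSum Vale.Agent.P280.T Vale.Agent.P280.H127

namespace Vale.Agent.P280.H309

open Vale.Agent.P280.N Vale.Agent.P280.H143 Vale.Agent.P280.H60

variable {r : ℕ} {R : Type} [CommRing R] [IsDomain R] [Algebra ℂ R]
  {𝒜 : ℕ × (Fin r → ℤ) → Submodule ℂ R} [GradedAlgebra 𝒜]

theorem halfP (H : H63X.Hyp 𝒜) (hdat : CritData 𝒜) : H641.HalfP 𝒜 := by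
  intro c hc p hp χ hχ
  exact int_half H hdat (H60.bd_of_data H hdat) hc hp hχ

end Vale.Agent.P280.H309
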